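import Vale.Agent.P338.R2.H501.Bp.Mac1

/-!
P338, stage 3: macros on files: repetition of rows, long files by pieces.
-/

namespace Vale.Agent.P338.R2.H501.Bp

open Vale.Agent.P338.R2.H898
open Vale.Agent.P338.R2.H968 (zipAt zipAt_zero zipAt_length zipAt_peek zipAt_right zipAt_rew
  upd_self forR run_forR copy1 run_copy1 copyN run_copyN run_act act skip run_skip)
open Vale.Agent.P338.R2.H784 (op put clr run_op run_rew run_put run_clr run_right)
open Function (update)

set_option linter.unusedSectionVars false

variable {M F α : Type} [DecidableEq F] {d : α}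

/-- Copying a block, the length is the product of the lengths of the rulers. -/
def copyL (e : α) (f g : F) : List F → Prog M F α
  | [] => copy1 e f g
  | r :: rs => forR r (copyL e f g rs)

/-- The product of the lengths of the rulers. -/
def prodL (N : F → ℕ) (rs : List F) : ℕ := (rs.map N).prod

theorem prodL_pos {N : F → ℕ} {rs : List F} (h : ∀ r ∈ rs, 1 ≤ N r) : 1 ≤ prodL N rs := by
  induction rs with
  | nil => exact le_rfl
  | cons r rs ih =>
    have h1 := ih fun q hq => h q (List.mem_cons_of_mem _ hq)
    have h2 := h r List.mem_cons_self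
    rw [prodL, List.map_cons, List.prod_cons]
    exact Nat.mul_pos h2 h1

theorem run_copyL {e : α} {f g : F} (hfg : f ≠ g) (N : F → ℕ) (rs : List F) (hnd : rs.Nodup)
    (hf : f ∉ rs) (hg : g ∉ rs) (hpos : ∀ r ∈ rs, 1 ≤ N r)
    {x u y v : List α} {m : M} {z : F → Zip α} (hlen : x.length = prodL N rs)
    (hzf : z f = ⟨u, x ++ y⟩) (hzg : z g = ⟨v, []⟩)
    (hr : ∀ r ∈ rs, ∃ R : List α, R.length = N r ∧ z r = ⟨[], R⟩) :
    Prog.Run d (copyL e f g rs) ⟨m, z⟩ ((3 + 4 * rs.length) * prodL N rs)
      ⟨m, update (update z f ⟨x.reverse ++ u, y⟩) g ⟨x.reverse ++ v, []⟩⟩ := by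
  induction rs generalizing x u y v z with
  | nil =>
    have h1 : x.length = 1 := hlen
    obtain ⟨a, rfl⟩ := List.length_eq_one_iff.1 h1
    refine run_eq (run_copy1 (d := d) (e := e) hfg (a := a) (x := y) (u := u) (v := v) hzf hzg)
      (by simp [prodL]) rfl
  | cons r rs ih =>
    obtain ⟨R, hR, hzr⟩ := hr r List.mem_cons_self
    have hfr : f ≠ r := fun h => hf (h ▸ List.mem_cons_self)
    have hgr : g ≠ r := fun h => hg (h ▸ List.mem_cons_self)
    have hrs : r ∉ rs := (List.nodup_cons.1 hnd).1
    have hP : prodL N (r :: rs) = R.length * prodL N rs := by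
      rw [prodL, List.map_cons, List.prod_cons, hR]; rfl
    have hRpos : 1 ≤ R.length := hR ▸ hpos r List.mem_cons_self
    have hPpos : 1 ≤ prodL N rs := prodL_pos fun q hq => hpos q (List.mem_cons_of_mem _ hq)
    set P := prodL N rs with hPdef
    rw [hP] at hlen
    have k1 := run_forR (d := d) (r := r) (p := copyL e f g rs) (R := R) (m := m)
      (fun i => update (update z f ⟨(x.take (i * P)).reverse ++ u, x.drop (i * P) ++ y⟩) g
        ⟨(x.take (i * P)).reverse ++ v, []⟩) ((3 + 4 * rs.length) * P)
      (fun i => by rw [Function.update_of_ne hgr.symm, Function.update_of_ne hfr.symm, hzr])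
      (fun i hi => by
        have hle : (i + 1) * P ≤ x.length := by rw [hlen]; exact Nat.mul_le_mul_right _ hi
        have e0 : (i + 1) * P = i * P + P := by ring
        have k2 := ih (List.nodup_cons.1 hnd).2 (fun h => hf (List.mem_cons_of_mem _ h))
          (fun h => hg (List.mem_cons_of_mem _ h))
          (fun q hq => hpos q (List.mem_cons_of_mem _ hq))
          (x := (x.drop (i * P)).take P) (u := (x.take (i * P)).reverse ++ u)
          (y := x.drop ((i + 1) * P) ++ y) (v := (x.take (i * P)).reverse ++ v)
          (z := update (update (update z f ⟨(x.take (i * P)).reverse ++ u,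
            x.drop (i * P) ++ y⟩) g ⟨(x.take (i * P)).reverse ++ v, []⟩) r (zipAt R i))
          (by rw [List.length_take, List.length_drop]; omega)
          (by
            rw [Function.update_of_ne hfr, Function.update_of_ne hfg, Function.update_self,
              ← List.append_assoc, e0, ← List.drop_drop, List.take_append_drop])
          (by rw [Function.update_of_ne hgr, Function.update_self])
          (fun q hq => by
            obtain ⟨R', h1, h2⟩ := hr q (List.mem_cons_of_mem _ hq)
            have hq1 : q ≠ r := fun h => hrs (h ▸ hq)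
            have hq2 : q ≠ f := fun h => hf (h ▸ List.mem_cons_of_mem _ hq)
            have hq3 : q ≠ g := fun h => hg (h ▸ List.mem_cons_of_mem _ hq)
            exact ⟨R', h1, by rw [Function.update_of_ne hq1, Function.update_of_ne hq3,
              Function.update_of_ne hq2, h2]⟩)
        have e1 : ∀ w : List α, ((x.drop (i * P)).take P).reverse ++ ((x.take (i * P)).reverse ++ w)
            = (x.take ((i + 1) * P)).reverse ++ w := by
          intro w
          rw [← List.append_assoc, ← List.reverse_append, e0, List.take_add]
        rw [e1, e1] at k2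
        refine run_eq k2 le_rfl ?_
        clear k2 e1 ih hr
        funext k
        simp only [Function.update_apply]
        split_ifs <;> simp_all)
    simp only [Nat.zero_mul, List.take_zero, List.reverse_nil, List.nil_append,
      List.drop_zero] at k1
    rw [upd_self z f _ hzf, upd_self z g _ hzg, ← hlen, List.take_length, List.drop_length,
      List.nil_append] at k1
    refine run_eq k1 ?_ rfl
    rw [hP, List.length_cons]
    nlinarith [Nat.mul_le_mul hRpos hPpos]

/-- The row repeated. -/
def repL {β : Type} (len rows c : ℕ) (X : List β) : List β :=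
  (List.range rows).flatMap fun i => (List.range c).flatMap fun _ => (X.drop (i * len)).take len

/-- `O` is extended by `c` copies of `B` (`c` is the length of the ruler `cnt`). -/
def repA (e : α) (B O cnt : F) : Prog M F α :=
  forR cnt (.seq (copyAll e B O) (op B .rew))

theorem run_repA {e : α} {B O cnt : F} (h1 : B ≠ O) (h2 : B ≠ cnt) (h3 : O ≠ cnt)
    {w v R : List α} {m : M} {z : F → Zip α} (hB : z B = ⟨[], w⟩) (hO : z O = ⟨v, []⟩)
    (hc : z cnt = ⟨[], R⟩) :
    Prog.Run d (repA e B O cnt) ⟨m, z⟩ (R.length * (4 * w.length + 4) + 2)
      ⟨m, update z O ⟨((List.range R.length).flatMap fun _ => w).reverse ++ v, []⟩⟩ := by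
  have k1 := run_forR (d := d) (r := cnt) (p := .seq (copyAll e B O) (op B .rew)) (R := R) (m := m)
    (fun i => update z O ⟨((List.range i).flatMap fun _ => w).reverse ++ v, []⟩)
    (4 * w.length + 2)
    (fun i => by rw [Function.update_of_ne h3.symm, hc])
    (fun i hi => by
      have k2 := run_appendR (d := d) (e := e) (m := m) h1 w
        (z := update (update z O ⟨((List.range i).flatMap fun _ => w).reverse ++ v, []⟩) cnt
          (zipAt R i)) (v := ((List.range i).flatMap fun _ => w).reverse ++ v)
        (by rw [Function.update_of_ne h2, Function.update_of_ne h1, hB])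
        (by rw [Function.update_of_ne h3, Function.update_self])
      refine run_eq k2 (by omega) ?_
      rw [flatMap_range_succ, List.reverse_append, List.append_assoc]
      clear k2
      funext k
      simp only [Function.update_apply]
      split_ifs <;> simp_all)
  simp only [List.range_zero, List.flatMap_nil, List.reverse_nil, List.nil_append] at k1
  rw [upd_self z O _ hO] at k1
  exact k1

/-- Every row of `T` (the length of a row is the product of the lengths of the rulers `rs`) is
repeated `c` times (`c` is the length of `cnt`) on `O`; `T` is cleared; `B` is a scratch file. -/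
def repP (e : α) (T O B : F) (rs : List F) (cnt : F) : Prog M F α :=
  .seq (.loop (fun _ r => (r T).isSome) (.seq (copyL e T B rs)
    (.seq (op B .rew) (.seq (repA e B O cnt) (clr B))))) (.seq (clr T) (op O .rew))

theorem run_repP {e : α} {T O B cnt : F} {rs : List F} (N : F → ℕ) (h1 : T ≠ O) (h2 : T ≠ B)
    (h3 : T ≠ cnt) (h4 : O ≠ B) (h5 : O ≠ cnt) (h6 : B ≠ cnt) (hnd : rs.Nodup)
    (hT : T ∉ rs) (hO : O ∉ rs) (hB : B ∉ rs) (hpos : ∀ r ∈ rs, 1 ≤ N r)
    {X R : List α} {rows : ℕ} {m : M} {z : F → Zip α} (hX : X.length = rows * prodL N rs)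
    (hzT : z T = ⟨[], X⟩) (hzO : z O = ⟨[], []⟩) (hzB : z B = ⟨[], []⟩)
    (hc : z cnt = ⟨[], R⟩) (hr : ∀ r ∈ rs, ∃ R : List α, R.length = N r ∧ z r = ⟨[], R⟩) :
    Prog.Run d (repP e T O B rs cnt) ⟨m, z⟩
      (rows * (R.length * (4 * prodL N rs + 4) + (3 + 4 * rs.length) * prodL N rs + 6) + 4)
      ⟨m, update (update z T ⟨[], []⟩) O ⟨[], repL (prodL N rs) rows R.length X⟩⟩ := by
  set P := prodL N rs with hP
  have hPpos : 1 ≤ P := prodL_pos hpos
  set Z : ℕ → F → Zip α := fun i => update (update z T (zipAt X (i * P)))
    O ⟨(repL P i R.length X).reverse, []⟩ with hZ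
  have k1 := Prog.Run.loop_const (d := d) (c := fun _ r => (r T).isSome)
    (p := .seq (copyL e T B rs)
    (.seq (op B .rew) (.seq (repA e B O cnt) (clr B)))) rows
    (fun t => (⟨m, Z t⟩ : Store M F α))
    (R.length * (4 * P + 4) + (3 + 4 * rs.length) * P + 5)
    (fun t ht => by
      have hlt : t * P < X.length := by
        rw [hX]; exact Nat.mul_lt_mul_of_pos_right (by omega) (by omega)
      simp only [hZ, Store.reads]
      rw [Function.update_of_ne h1, Function.update_self, zipAt_peek,
        List.getElem?_eq_getElem hlt]
      rfl)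
    (by
      simp only [hZ, Store.reads]
      rw [Function.update_of_ne h1, Function.update_self, zipAt_peek,
        List.getElem?_eq_none (by rw [hX])]
      rfl)
    (fun t ht => by
      obtain ⟨e1, e2, e3⟩ := zipAt_block (W := P) hX ht
      have k2 := run_copyL (d := d) (e := e) (m := m) h2 N rs hnd hT hB hpos
        (x := (X.drop (t * P)).take P) (u := (X.take (t * P)).reverse)
        (y := X.drop ((t + 1) * P)) (v := []) (z := Z t) e2
        (by simp only [hZ]; rw [Function.update_of_ne h1, Function.update_self, e1])
        (by simp only [hZ]; rw [Function.update_of_ne h4.symm, Function.update_of_ne h2.symm, hzB])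
        (fun q hq => by
          obtain ⟨R', h7, h8⟩ := hr q hq
          have hq1 : q ≠ O := fun h => hO (h ▸ hq)
          have hq2 : q ≠ T := fun h => hT (h ▸ hq)
          exact ⟨R', h7, by
            simp only [hZ]; rw [Function.update_of_ne hq1, Function.update_of_ne hq2, h8]⟩)
      rw [e3] at k2
      simp only [List.append_nil] at k2
      have k3 := run_rew (d := d) B m (update (update (Z t) T
        ⟨(X.take ((t + 1) * P)).reverse, X.drop ((t + 1) * P)⟩) B
          ⟨((X.drop (t * P)).take P).reverse, []⟩)
      rw [Function.update_idem, Function.update_self] at k3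
      simp only [Zip.full, List.append_nil, List.reverse_reverse] at k3
      have k4 := run_repA (d := d) (e := e) (m := m) h4.symm h6 h5
        (z := update (update (Z t) T
        ⟨(X.take ((t + 1) * P)).reverse, X.drop ((t + 1) * P)⟩) B
          ⟨[], (X.drop (t * P)).take P⟩) (w := (X.drop (t * P)).take P)
        (v := (repL P t R.length X).reverse) (R := R)
        (by rw [Function.update_self])
        (by
          simp only [hZ]
          rw [Function.update_of_ne h4, Function.update_of_ne h1.symm, Function.update_self])
        (by
          simp only [hZ]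
          rw [Function.update_of_ne h6.symm, Function.update_of_ne h3.symm,
            Function.update_of_ne h5.symm, Function.update_of_ne h3.symm, hc])
      rw [e2] at k4
      refine run_eq (k2.seq (k3.seq (k4.seq (run_clr B _ _)))) ?_ ?_
      · rw [← hP]; omega
      · have e7 : repL P (t + 1) R.length X = repL P t R.length X ++
            ((List.range R.length).flatMap fun _ => (X.drop (t * P)).take P) :=
          flatMap_range_succ _ _
        simp only [hZ, e7, List.reverse_append]
        clear k2 k3 k4 hr e1 e2 e3 e7 hX
        funext f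
        simp only [Function.update_apply, zipAt]
        split_ifs <;> simp_all)
  have hZ0 : Z 0 = z := by
    have e0 : repL P 0 R.length X = [] := rfl
    simp only [hZ, e0, Nat.zero_mul, zipAt_zero, List.reverse_nil]
    rw [upd_self z T _ hzT, upd_self z O _ hzO]
  simp only [hZ0] at k1
  refine run_eq (k1.seq ((run_clr T _ _).seq (run_rew O _ _))) ?_ ?_
  · have e5 : R.length * (4 * P + 4) + (3 + 4 * rs.length) * P + 5 + 1 =
      R.length * (4 * P + 4) + (3 + 4 * rs.length) * P + 6 := by omega
    rw [e5]
  · simp only [hZ, Zip.full]
    clear k1 hr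
    funext k
    simp only [Function.update_apply]
    split_ifs <;> simp_all

/-- The whole file `T` is repeated on `O`; `T` is cleared. -/
def repW (e : α) (T O cnt : F) : Prog M F α :=
  .seq (repA e T O cnt) (.seq (clr T) (op O .rew))

theorem run_repW {e : α} {T O cnt : F} (h1 : T ≠ O) (h2 : T ≠ cnt) (h3 : O ≠ cnt)
    {X R : List α} {m : M} {z : F → Zip α}
    (hzT : z T = ⟨[], X⟩) (hzO : z O = ⟨[], []⟩) (hc : z cnt = ⟨[], R⟩) :
    Prog.Run d (repW e T O cnt) ⟨m, z⟩ (R.length * (4 * X.length + 4) + 5)
      ⟨m, update (update z T ⟨[], []⟩) O ⟨[], repL X.length 1 R.length X⟩⟩ := by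
  have k1 := run_repA (d := d) (e := e) (m := m) h1 h2 h3 hzT hzO hc
  refine run_eq (k1.seq ((run_clr T _ _).seq (run_rew O _ _))) (by omega) ?_
  have e1 : repL X.length 1 R.length X = (List.range R.length).flatMap fun _ => X := by
    simp [repL]
  rw [e1]
  clear k1 e1
  simp only [Zip.full]
  funext k
  simp only [Function.update_apply]
  split_ifs <;> simp_all

/-! ### Long files -/

/-- The concatenation of the outputs of the pieces `i, i + J, …` below `T`. -/
def longG {β : Type} (T J : ℕ) (piece : ℕ → List β) : ℕ → ℕ → List β
  | 0, _ => []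
  | f + 1, i => if T ≤ i then [] else piece i ++ longG T J piece f (i + J)

/-- The loop for a long file. `St i o` is the store when the words before `i` are done and the
output is `o`. -/
theorem run_long {β : Type} {c : M → (F → Option α) → Bool} {body : Prog M F α}
    {St : ℕ → List β → Store M F α} {piece : ℕ → List β} {T J t : ℕ}
    (hT : ∀ o, c (St T o).m (St T o).reads = false)
    (hc : ∀ i < T, ∀ o, c (St i o).m (St i o).reads = true)
    (hb : ∀ i < T, ∀ o, Prog.Run d body (St i o) t (St (i + min J (T - i)) (o ++ piece i)))
    (f i : ℕ) (hi : i ≤ T) (hf : T ≤ i + f * J) (o : List β) :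
    Prog.Run d (.loop c body) (St i o) (f * (t + 1) + 1) (St T (o ++ longG T J piece f i)) := by
  induction f generalizing i o with
  | zero =>
    have h : i = T := by omega
    subst h
    rw [longG, List.append_nil]
    exact (Prog.Run.loopF (hT o)).mono (by omega)
  | succ f ih =>
    rw [longG]
    by_cases h : T ≤ i
    · have h' : i = T := by omega
      subst h'
      rw [if_pos h, List.append_nil]
      exact (Prog.Run.loopF (hT o)).mono (by omega)
    · rw [if_neg h]
      have hi' : i < T := by omega
      have k1 := hb i hi' o
      have k2 := ih (i + min J (T - i)) (by omega)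
        (by rw [Nat.add_mul] at hf; omega) (o ++ piece i)
      have e1 : longG T J piece f (i + min J (T - i)) = longG T J piece f (i + J) := by
        by_cases h2 : J ≤ T - i
        · rw [Nat.min_eq_left h2]
        · rw [Nat.min_eq_right (by omega)]
          cases f with
          | zero => rfl
          | succ f => rw [longG, longG, if_pos (by omega), if_pos (by omega)]
      rw [e1, List.append_assoc] at k2
      refine (Prog.Run.loopT (hc i hi' o) k1 k2).mono ?_
      rw [Nat.add_mul]
      omega

end Vale.Agent.P338.R2.H501.Bp
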