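import Vale.Agent.P338.R2.H501.Bp.Mac2
import Vale.Agent.P338.R2.H501.Bp.Mac3
import Vale.Agent.P338.R2.H784.Bp.Spec

/-!
P338, stage 3: macros on files, statements for files of bits.
-/

namespace Vale.Agent.P338.R2.H501.Bp

open Vale.Agent.P338.R2.H898 hiding val bin
open Vale.Agent.P338.R2.H968 (zipAt zipAt_zero zipAt_length)
open Vale.Agent.P338.R2.H778 (val bits)
open Vale.Agent.P338.R2.H525 (slotAt zeros)
open Vale.Agent.P338.R2.H784.Bp (pairB addB repB cutB longB batchB padB)
open Function (update)

set_option linter.unusedSectionVars false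

section lists

variable {α : Type} (bit : Bool → α)

theorem slotAt_map (W t : ℕ) (x : List Bool) :
    ((x.map bit).drop (t * W)).take W = (slotAt W x t).map bit := by
  rw [slotAt, ← List.map_drop, ← List.map_take]

theorem cutL_map (pad W i N : ℕ) (x : List Bool) :
    cutL (bit false) pad W i N (x.map bit) = (cutB pad W i N x).map bit := by
  rw [cutL, cutB, List.map_flatMap]
  apply List.flatMap_congr
  intro j _
  rw [slotAt_map, List.map_append, zeros, List.map_replicate]

theorem pairL_map (b T : ℕ) (x y : List Bool) :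
    pairL b T (x.map bit) (y.map bit) = (pairB b T x y).map bit := by
  rw [pairL, pairB, List.map_flatMap]
  apply List.flatMap_congr
  intro j _
  rw [slotAt_map, slotAt_map, List.map_append]

theorem repL_map (len rows c : ℕ) (x : List Bool) :
    repL len rows c (x.map bit) = (repB len rows c x).map bit := by
  rw [repL, repB, List.map_flatMap]
  apply List.flatMap_congr
  intro j _
  rw [List.map_flatMap, ← List.map_drop, ← List.map_take]

end lists

theorem longB_eq (W q om nu iv n J p μ T : ℕ) (x y : List Bool) (f i : ℕ) :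
    longB W q om nu iv n J p μ T x y f i = longG T J (fun i => batchB W q om nu iv n
      (min J (T - i)) p μ (cutB (padB W) W i (min J (T - i)) x)
        (cutB (padB W) W i (min J (T - i)) y)) f i := by
  induction f generalizing i with
  | zero => rfl
  | succ f ih => rw [longB, longG, ih]

theorem length_flatMap_range {β : Type} (n k : ℕ) (f : ℕ → List β)
    (h : ∀ i < n, (f i).length = k) : ((List.range n).flatMap f).length = n * k := by
  induction n with
  | zero => simp
  | succ n ih =>
    rw [flatMap_range_succ, List.length_append, ih fun i hi => h i (by omega), h n (by omega)]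
    ring

theorem length_slotAt {W t T : ℕ} {x : List Bool} (hx : x.length = T * W) (ht : t < T) :
    (slotAt W x t).length = W := by
  have h1 : (t + 1) * W ≤ x.length := by rw [hx]; exact Nat.mul_le_mul_right _ ht
  have h2 : (t + 1) * W = t * W + W := by ring
  rw [slotAt, List.length_take, List.length_drop]
  omega

theorem length_cutB {pad W i N T : ℕ} {x : List Bool} (hx : x.length = T * W) (hN : i + N ≤ T) :
    (cutB pad W i N x).length = N * (pad + W) := by
  rw [cutB]
  apply length_flatMap_range
  intro j hj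
  rw [List.length_append, zeros, List.length_replicate, length_slotAt hx (by omega)]

theorem length_pairB {b T : ℕ} {x y : List Bool} (hx : x.length = T * b)
    (hy : y.length = T * b) : (pairB b T x y).length = T * (2 * b) := by
  rw [pairB]
  apply length_flatMap_range
  intro j hj
  rw [List.length_append, length_slotAt hx hj, length_slotAt hy hj]
  ring

theorem length_addB (x y : List Bool) : (addB x y).length = x.length := H778.length_bits _ _

theorem length_repB {len rows c : ℕ} {x : List Bool} (hx : x.length = rows * len) :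
    (repB len rows c x).length = rows * (c * len) := by
  rw [repB]
  apply length_flatMap_range
  intro j hj
  apply length_flatMap_range
  intro _ _
  exact length_slotAt hx hj

variable {M F α : Type} [DecidableEq F] {d : α} {bit : Bool → α} {u : α}

/-- A ruler. -/
abbrev rl (u : α) (n : ℕ) : Zip α := ⟨[], List.replicate n u⟩

/-- (1) Cutting a piece, with the number of words as a ruler. -/
theorem run_cutB {src dst cnt fJ fP fW : F} (h : [src, dst, cnt, fJ, fP, fW].Nodup)
    {x : List Bool} {T W pad J i : ℕ} {m : M} {z : F → Zip α}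
    (hx : x.length = T * W) (hW : 1 ≤ W) (hi : i ≤ T)
    (hsrc : z src = zipAt (x.map bit) (i * W)) (hdst : z dst = ⟨[], []⟩) (hcnt : z cnt = ⟨[], []⟩)
    (hJ : z fJ = rl u J) (hP : z fP = rl u pad) (hfW : z fW = rl u W) :
    Prog.Run d (cutP (bit false) u src dst cnt fJ fP fW) ⟨m, z⟩ (J * (pad * 4 + 5 * W + 9) + 4)
      ⟨m, update (update (update z
        src (zipAt (x.map bit) ((i + min J (T - i)) * W)))
        dst ⟨[], (cutB pad W i (min J (T - i)) x).map bit⟩)
        cnt (rl u (min J (T - i)))⟩ := by
  simp only [List.nodup_cons, List.mem_cons, List.not_mem_nil, not_or, or_false] at h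
  obtain ⟨⟨a1, a2, a3, a4, a5⟩, ⟨b1, b2, b3, b4⟩, ⟨c1, c2, c3⟩, ⟨d1, d2⟩, e1, -⟩ := h
  have k := run_cutP (d := d) (e := bit false) (u := u) (m := m) a1 a2 a4 a5 b1 b3 b4 c2 c3
    (Ne.symm a3) (Ne.symm b2) (Ne.symm c1) d1 d2 (X := x.map bit) (RJ := List.replicate J u)
    (RP := List.replicate pad u) (RW := List.replicate W u) (T := T) (i := i) (z := z)
    (by simpa using hx) (by simpa using hW) hi (by simpa using hsrc) hdst hcnt hJ hP hfW
  simp only [List.length_replicate, cutL_map] at k
  exact k

/-- (1') Cutting a piece, without counting. -/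
theorem run_cutB' {src dst fJ fP fW : F} (h : [src, dst, fJ, fP, fW].Nodup)
    {x : List Bool} {T W pad J i : ℕ} {m : M} {z : F → Zip α}
    (hx : x.length = T * W) (hW : 1 ≤ W) (hi : i ≤ T)
    (hsrc : z src = zipAt (x.map bit) (i * W)) (hdst : z dst = ⟨[], []⟩)
    (hJ : z fJ = rl u J) (hP : z fP = rl u pad) (hfW : z fW = rl u W) :
    Prog.Run d (cutQ (bit false) src dst fJ fP fW) ⟨m, z⟩ (J * (pad * 4 + 5 * W + 7) + 3)
      ⟨m, update (update z
        src (zipAt (x.map bit) ((i + min J (T - i)) * W)))
        dst ⟨[], (cutB pad W i (min J (T - i)) x).map bit⟩⟩ := by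
  simp only [List.nodup_cons, List.mem_cons, List.not_mem_nil, not_or, or_false] at h
  obtain ⟨⟨a1, a3, a4, a5⟩, ⟨b2, b3, b4⟩, ⟨d1, d2⟩, e1, -⟩ := h
  have k := run_cutQ (d := d) (e := bit false) (m := m) a1 a4 a5 b3 b4
    (Ne.symm a3) (Ne.symm b2) d1 d2 (X := x.map bit) (RJ := List.replicate J u)
    (RP := List.replicate pad u) (RW := List.replicate W u) (T := T) (i := i) (z := z)
    (by simpa using hx) (by simpa using hW) hi (by simpa using hsrc) hdst hJ hP hfW
  simp only [List.length_replicate, cutL_map] at k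
  exact k

/-- (2) Appending. -/
theorem run_appendB {I O : F} (h : [I, O].Nodup) {x o : List Bool} {m : M} {z : F → Zip α}
    (hI : z I = ⟨[], x.map bit⟩) (hO : z O = ⟨(o.map bit).reverse, []⟩) :
    Prog.Run d (appendP (bit false) I O) ⟨m, z⟩ (4 * x.length + 3)
      ⟨m, update (update z I ⟨[], []⟩) O ⟨((o ++ x).map bit).reverse, []⟩⟩ := by
  simp only [List.nodup_cons, List.mem_cons, List.not_mem_nil, or_false] at h
  have k := run_appendP (d := d) (e := bit false) (m := m) h.1 (x.map bit) hI hO
  rw [List.length_map, ← List.reverse_append, ← List.map_append] at k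
  exact k

/-- (2') Appending, the input is kept. -/
theorem run_appendB' {I O : F} (h : [I, O].Nodup) {x o : List Bool} {m : M} {z : F → Zip α}
    (hI : z I = ⟨[], x.map bit⟩) (hO : z O = ⟨(o.map bit).reverse, []⟩) :
    Prog.Run d (appendR (bit false) I O) ⟨m, z⟩ (4 * x.length + 2)
      ⟨m, update z O ⟨((o ++ x).map bit).reverse, []⟩⟩ := by
  simp only [List.nodup_cons, List.mem_cons, List.not_mem_nil, or_false] at h
  have k := run_appendR (d := d) (e := bit false) (m := m) h.1 (x.map bit) hI hO
  rw [List.length_map, ← List.reverse_append, ← List.map_append] at k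
  exact k

/-- (3) Merging. -/
theorem run_mergeB {x y O fB : F} (h : [x, y, O, fB].Nodup)
    {X Y : List Bool} {T b : ℕ} {m : M} {z : F → Zip α}
    (hX : X.length = T * b) (hY : Y.length = T * b) (hb : 1 ≤ b)
    (hx : z x = ⟨[], X.map bit⟩) (hy : z y = ⟨[], Y.map bit⟩) (hO : z O = ⟨[], []⟩)
    (hB : z fB = rl u b) :
    Prog.Run d (mergeP (bit false) x y O fB) ⟨m, z⟩ (T * (10 * b + 5) + 6)
      ⟨m, update (update (update z x ⟨[], []⟩) y ⟨[], []⟩)
        O ⟨[], (pairB b T X Y).map bit⟩⟩ := by
  simp only [List.nodup_cons, List.mem_cons, List.not_mem_nil, not_or, or_false] at h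
  obtain ⟨⟨a1, a2, a3⟩, ⟨b1, b2⟩, c1, -⟩ := h
  have k := run_mergeP (d := d) (e := bit false) (m := m) a1 a2 a3 b1 b2 c1 (X := X.map bit)
    (Y := Y.map bit) (RB := List.replicate b u) (T := T) (z := z) (by simpa using hX)
    (by simpa using hY) (by simpa using hb) hx hy hO hB
  simp only [List.length_replicate, pairL_map] at k
  exact k

/-- (4) Adding (`c`, `e` are scratch files). -/
theorem run_addB {unbit : α → Bool} (hu : ∀ b, unbit (bit b) = b) {x y c e : F}
    (h : [x, y, c, e].Nodup) {X Y : List Bool} (hl : Y.length = X.length)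
    {m : M} {z : F → Zip α} (hx : z x = ⟨[], X.map bit⟩) (hy : z y = ⟨[], Y.map bit⟩)
    (hc : z c = ⟨[], []⟩) (he : z e = ⟨[], []⟩) :
    Prog.Run d (addP bit unbit u x y c e) ⟨m, z⟩ (11 * X.length + 10)
      ⟨m, update (update z x ⟨[], (addB X Y).map bit⟩) y ⟨[], []⟩⟩ := by
  simp only [List.nodup_cons, List.mem_cons, List.not_mem_nil, not_or, or_false] at h
  obtain ⟨⟨a1, a2, a3⟩, ⟨b1, b2⟩, c1, -⟩ := h
  exact run_addP (d := d) (u := u) (m := m) hu a1 a2 a3 b1 b2 c1 hl hx hy hc he

/-- (5) Repetition of rows (the length of a row is the product of the rulers `rs`). -/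
theorem run_repB {T O B cnt : F} {rs : List F} (N : F → ℕ) (h : (T :: O :: B :: rs).Nodup)
    (h' : [T, O, B, cnt].Nodup) (hpos : ∀ r ∈ rs, 1 ≤ N r)
    {X : List Bool} {rows c : ℕ} {m : M} {z : F → Zip α} (hX : X.length = rows * (rs.map N).prod)
    (hT : z T = ⟨[], X.map bit⟩) (hO : z O = ⟨[], []⟩) (hB : z B = ⟨[], []⟩)
    (hc : z cnt = rl u c) (hr : ∀ r ∈ rs, z r = rl u (N r)) :
    Prog.Run d (repP (bit false) T O B rs cnt) ⟨m, z⟩
      (rows * (c * (4 * (rs.map N).prod + 4) + (3 + 4 * rs.length) * (rs.map N).prod + 6) + 4)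
      ⟨m, update (update z T ⟨[], []⟩) O ⟨[], (repB (rs.map N).prod rows c X).map bit⟩⟩ := by
  simp only [List.nodup_cons, List.mem_cons, not_or] at h
  simp only [List.nodup_cons, List.mem_cons, List.not_mem_nil, not_or, or_false] at h'
  obtain ⟨⟨a1, a2, a3⟩, ⟨b1, b2⟩, c1, h2⟩ := h
  obtain ⟨⟨-, -, a4⟩, ⟨-, b3⟩, c2, -⟩ := h'
  have k := run_repP (d := d) (e := bit false) (m := m) N a1 a2 a4 b1 b3 c2 h2 a3 b2 c1 hpos
    (X := X.map bit) (R := List.replicate c u) (rows := rows) (z := z)
    (by rw [List.length_map]; exact hX) hT hO hB hc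
    (fun r hr' => ⟨List.replicate (N r) u, by simp, hr r hr'⟩)
  simp only [List.length_replicate, repL_map] at k
  exact k

/-- (5') Repetition of the whole file. -/
theorem run_repB' {T O cnt : F} (h : [T, O, cnt].Nodup)
    {X : List Bool} {c : ℕ} {m : M} {z : F → Zip α}
    (hT : z T = ⟨[], X.map bit⟩) (hO : z O = ⟨[], []⟩) (hc : z cnt = rl u c) :
    Prog.Run d (repW (bit false) T O cnt) ⟨m, z⟩ (c * (4 * X.length + 4) + 5)
      ⟨m, update (update z T ⟨[], []⟩) O ⟨[], (repB X.length 1 c X).map bit⟩⟩ := by
  simp only [List.nodup_cons, List.mem_cons, List.not_mem_nil, not_or, or_false] at h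
  obtain ⟨⟨a1, a2⟩, b1, -⟩ := h
  have k := run_repW (d := d) (e := bit false) (m := m) a1 a2 b1 hT hO hc
  simp only [List.length_replicate, List.length_map, repL_map] at k
  exact k

/-- (6) The loop for a long file. `St i o` is the store when the words before `i` are done and the
output is `o`; `body` does one piece at a cost of at most `t`. -/
theorem run_longB {body : Prog M F α} {src : F} {St : ℕ → List Bool → Store M F α}
    {W q om nu iv n J p μ T t : ℕ} {x y : List Bool} (hx : x.length = T * W) (hW : 1 ≤ W)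
    (hsrc : ∀ i ≤ T, ∀ o, (St i o).z src = zipAt (x.map bit) (i * W))
    (hb : ∀ i < T, ∀ o, Prog.Run d body (St i o) t (St (i + min J (T - i))
      (o ++ batchB W q om nu iv n (min J (T - i)) p μ (cutB (padB W) W i (min J (T - i)) x)
        (cutB (padB W) W i (min J (T - i)) y))))
    (f : ℕ) (hf : T ≤ f * J) :
    Prog.Run d (.loop (fun _ r => (r src).isSome) body) (St 0 []) (f * (t + 1) + 1)
      (St T (longB W q om nu iv n J p μ T x y f 0)) := by
  have k := run_long (d := d) (c := fun _ r => (r src).isSome) (body := body) (St := St)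
    (piece := fun i => batchB W q om nu iv n (min J (T - i)) p μ
        (cutB (padB W) W i (min J (T - i)) x)
        (cutB (padB W) W i (min J (T - i)) y)) (T := T) (J := J) (t := t)
    (fun o => by
      simp only [Store.reads]
      rw [hsrc T le_rfl, H968.zipAt_peek, List.getElem?_eq_none (by rw [List.length_map, hx])]
      rfl)
    (fun i hi o => by
      have hlt : i * W < (x.map bit).length := by
        rw [List.length_map, hx]; exact Nat.mul_lt_mul_of_pos_right hi (by omega)
      simp only [Store.reads]
      rw [hsrc i (by omega), H968.zipAt_peek, List.getElem?_eq_getElem hlt]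
      rfl)
    hb f 0 (Nat.zero_le _) (by omega) []
  rw [longB_eq]
  exact k

end Vale.Agent.P338.R2.H501.Bp
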