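import Vale.Agent.P338.R2.H784.Lib
import Vale.Agent.P338.R2.H968.Ruler

/-!
P338, stage 3: macros on files: copying to the end of a file, appending, cutting pieces of words,
merging two files.
-/

namespace Vale.Agent.P338.R2.H501.Bp

open Vale.Agent.P338.R2.H898
open Vale.Agent.P338.R2.H968 (zipAt zipAt_zero zipAt_length zipAt_peek zipAt_right zipAt_rew
  upd_self forR run_forR copy1 run_copy1 copyN run_copyN run_act act skip run_skip)
open Vale.Agent.P338.R2.H784 (op put clr run_op run_rew run_put run_clr run_right)
open Function (update)

set_option linter.unusedSectionVars false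

variable {M F α : Type} [DecidableEq F] {d : α}

/-- Change of the cost and of the final files. -/
theorem run_eq {p : Prog M F α} {m : M} {z z' z'' : F → Zip α} {t t' : ℕ}
    (h : Prog.Run d p ⟨m, z⟩ t ⟨m, z'⟩) (ht : t ≤ t') (hz : z' = z'') :
    Prog.Run d p ⟨m, z⟩ t' ⟨m, z''⟩ := hz ▸ h.mono ht

theorem flatMap_range_congr {β : Type} {n : ℕ} {f g : ℕ → List β} (h : ∀ i < n, f i = g i) :
    (List.range n).flatMap f = (List.range n).flatMap g :=
  List.flatMap_congr fun i hi => h i (List.mem_range.1 hi)

theorem flatMap_range_succ {β : Type} (n : ℕ) (f : ℕ → List β) :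
    (List.range (n + 1)).flatMap f = (List.range n).flatMap f ++ f n := by
  rw [List.range_succ, List.flatMap_append, List.flatMap_singleton]

theorem flatMap_range_succ' {β : Type} (n : ℕ) (f : ℕ → List β) :
    (List.range (n + 1)).flatMap f = f 0 ++ (List.range n).flatMap fun i => f (i + 1) := by
  rw [List.range_succ_eq_map, List.flatMap_cons, List.flatMap_map]

/-! ### Copying the rest of a file, appending -/

/-- Copy everything from the head of `I` on to (the end of) `O`. -/
def copyAll (e : α) (I O : F) : Prog M F α :=
  .loop (fun _ r => (r I).isSome) (copy1 e I O)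

theorem run_copyAll {e : α} {I O : F} (h : I ≠ O) (w : List α) {u v : List α} {m : M}
    {z : F → Zip α} (hI : z I = ⟨u, w⟩) (hO : z O = ⟨v, []⟩) :
    Prog.Run d (copyAll e I O) ⟨m, z⟩ (4 * w.length + 1)
      ⟨m, update (update z I ⟨w.reverse ++ u, []⟩) O ⟨w.reverse ++ v, []⟩⟩ := by
  induction w generalizing u v z with
  | nil =>
    refine run_eq (Prog.Run.loopF ?_) (by simp) ?_
    · simp [Store.reads, hI, Zip.peek]
    · simp only [List.reverse_nil, List.nil_append]
      rw [upd_self z I _ hI, upd_self z O _ hO]
  | cons a w ih =>
    have h1 := run_copy1 (d := d) (e := e) h (a := a) (u := u) (x := w) (v := v) (m := m) hI hO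
    have h2 := ih (u := a :: u) (v := a :: v)
      (z := update (update z I ⟨a :: u, w⟩) O ⟨a :: v, []⟩)
      (by rw [Function.update_of_ne h, Function.update_self]) (by rw [Function.update_self])
    refine run_eq (Prog.Run.loopT ?_ h1 h2) (by simp only [List.length_cons]; omega) ?_
    · simp [Store.reads, hI, Zip.peek]
    · funext k
      simp only [Function.update_apply, List.reverse_cons, List.append_assoc, List.singleton_append]
      split_ifs <;> simp_all

/-- `I` is appended to `O` and cleared. -/
def appendP (e : α) (I O : F) : Prog M F α := .seq (copyAll e I O) (clr I)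

theorem run_appendP {e : α} {I O : F} (h : I ≠ O) (w : List α) {v : List α} {m : M}
    {z : F → Zip α} (hI : z I = ⟨[], w⟩) (hO : z O = ⟨v, []⟩) :
    Prog.Run d (appendP e I O) ⟨m, z⟩ (4 * w.length + 3)
      ⟨m, update (update z I ⟨[], []⟩) O ⟨w.reverse ++ v, []⟩⟩ := by
  refine run_eq ((run_copyAll (d := d) (e := e) h w hI hO).seq (run_clr I _ _)) (by omega) ?_
  funext k
  simp only [Function.update_apply]
  split_ifs <;> simp_all

/-- `I` is appended to `O` and rewound. -/
def appendR (e : α) (I O : F) : Prog M F α := .seq (copyAll e I O) (op I .rew)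

theorem run_appendR {e : α} {I O : F} (h : I ≠ O) (w : List α) {v : List α} {m : M}
    {z : F → Zip α} (hI : z I = ⟨[], w⟩) (hO : z O = ⟨v, []⟩) :
    Prog.Run d (appendR e I O) ⟨m, z⟩ (4 * w.length + 2)
      ⟨m, update z O ⟨w.reverse ++ v, []⟩⟩ := by
  refine run_eq ((run_copyAll (d := d) (e := e) h w hI hO).seq (run_rew I _ _)) (by omega) ?_
  rw [Function.update_of_ne h, Function.update_self]
  simp only [Zip.full, List.append_nil, List.reverse_reverse]
  funext k
  simp only [Function.update_apply]
  split_ifs <;> simp_all

/-! ### Cutting a piece -/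

/-- `k` copies of a symbol are appended to `g` (`r` is a ruler of length `k`). -/
def putR (a : α) (g r : F) : Prog M F α := forR r (put g a)

theorem run_putR {a : α} {g r : F} (h : g ≠ r) {v R : List α} {m : M} {z : F → Zip α}
    (hg : z g = ⟨v, []⟩) (hr : z r = ⟨[], R⟩) :
    Prog.Run d (putR a g r) ⟨m, z⟩ (R.length * 4 + 2)
      ⟨m, update z g ⟨List.replicate R.length a ++ v, []⟩⟩ := by
  have h1 := run_forR (d := d) (r := r) (p := put g a) (R := R) (m := m)
    (fun i => update z g ⟨List.replicate i a ++ v, []⟩) 2
    (fun i => by rw [Function.update_of_ne h.symm, hr])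
    (fun i hi => by
      refine run_eq (run_put (l := List.replicate i a ++ v) (by
        rw [Function.update_of_ne h, Function.update_self])) le_rfl ?_
      funext k
      simp only [Function.update_apply, List.replicate_succ, List.cons_append]
      split_ifs <;> simp_all)
  simp only [List.replicate_zero, List.nil_append] at h1
  rw [upd_self z g _ hg] at h1
  exact h1

/-- One word of `cut`. -/
def cut1 (e u : α) (src dst cnt pad W : F) : Prog M F α :=
  .seq (putR e dst pad) (.seq (copyN e src dst W) (put cnt u))

/-- From `src` at most `J` words of `W` symbols are copied to `dst`, each preceded by `pad`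
symbols `e`; `cnt` counts the words. -/
def cutP (e u : α) (src dst cnt J pad W : F) : Prog M F α :=
  .seq (forR J (.ite (fun _ r => (r src).isSome) (cut1 e u src dst cnt pad W) skip))
    (.seq (op dst .rew) (op cnt .rew))

/-- The piece of `N` words from the word number `i` on. -/
def cutL {β : Type} (e : β) (pad W i N : ℕ) (X : List β) : List β :=
  (List.range N).flatMap fun j => List.replicate pad e ++ (X.drop ((i + j) * W)).take W

theorem cutL_succ {β : Type} (e : β) (pad W i N : ℕ) (X : List β) :
    cutL e pad W i (N + 1) X =
      cutL e pad W i N X ++ (List.replicate pad e ++ (X.drop ((i + N) * W)).take W) :=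
  flatMap_range_succ _ _

theorem zipAt_block {X : List α} {W T i : ℕ} (hX : X.length = T * W) (hi : i < T) :
    zipAt X (i * W) = ⟨(X.take (i * W)).reverse,
      (X.drop (i * W)).take W ++ X.drop ((i + 1) * W)⟩ ∧
      ((X.drop (i * W)).take W).length = W ∧
      ((X.drop (i * W)).take W).reverse ++ (X.take (i * W)).reverse =
        (X.take ((i + 1) * W)).reverse := by
  have h1 : (i + 1) * W ≤ X.length := by rw [hX]; exact Nat.mul_le_mul_right _ hi
  have h2 : (i + 1) * W = i * W + W := by ring
  refine ⟨?_, ?_, ?_⟩
  · rw [zipAt, h2, ← List.drop_drop, List.take_append_drop]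
  · rw [List.length_take, List.length_drop]; omega
  · rw [← List.reverse_append, h2, List.take_add]

theorem run_cut1 {e u : α} {src dst cnt pad W : F} (h1 : src ≠ dst) (h2 : src ≠ cnt)
    (h4 : src ≠ W) (h5 : dst ≠ cnt) (h6 : dst ≠ pad) (h7 : dst ≠ W)
    {X RP RW v : List α} {T i c : ℕ} {m : M} {z : F → Zip α}
    (hX : X.length = T * RW.length) (hi : i < T) (hsrc : z src = zipAt X (i * RW.length))
    (hdst : z dst = ⟨v, []⟩) (hcnt : z cnt = ⟨List.replicate c u, []⟩) (hpad : z pad = ⟨[], RP⟩)
    (hW : z W = ⟨[], RW⟩) :
    Prog.Run d (cut1 e u src dst cnt pad W) ⟨m, z⟩ (RP.length * 4 + 5 * RW.length + 6)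
      ⟨m, update (update (update z src (zipAt X ((i + 1) * RW.length))) dst
        ⟨(List.replicate RP.length e ++ (X.drop (i * RW.length)).take RW.length).reverse ++ v,
          []⟩) cnt ⟨List.replicate (c + 1) u, []⟩⟩ := by
  obtain ⟨e1, e2, e3⟩ := zipAt_block (W := RW.length) hX hi
  have k1 := run_putR (d := d) (a := e) (m := m) h6 hdst hpad
  have k2 := run_copyN (d := d) (e := e) (m := m) h1 h4 h7 (R := RW)
    (z := update z dst ⟨List.replicate RP.length e ++ v, []⟩)
    (x := (X.drop (i * RW.length)).take RW.length)
    (u := (X.take (i * RW.length)).reverse)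
    (y := X.drop ((i + 1) * RW.length)) (v := List.replicate RP.length e ++ v) e2
    (by rw [Function.update_of_ne h1, hsrc, e1]) (by rw [Function.update_self])
    (by rw [Function.update_of_ne h7.symm, hW])
  rw [e3] at k2
  have k3 := run_put (d := d) (a := u) (f := cnt) (m := m)
    (z := update (update (update z dst ⟨List.replicate RP.length e ++ v, []⟩) src
      ⟨(X.take ((i + 1) * RW.length)).reverse, X.drop ((i + 1) * RW.length)⟩) dst
      ⟨((X.drop (i * RW.length)).take RW.length).reverse ++ (List.replicate RP.length e ++ v), []⟩)
    (l := List.replicate c u)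
    (by rw [Function.update_of_ne h5.symm, Function.update_of_ne h2.symm,
      Function.update_of_ne h5.symm, hcnt])
  refine run_eq (k1.seq (k2.seq k3)) (by omega) ?_
  clear k1 k2 k3 e1 e2 e3 hX hsrc hdst hcnt hpad hW
  funext k
  simp only [Function.update_apply, List.reverse_append, List.reverse_replicate,
    List.append_assoc, List.replicate_succ, zipAt]
  split_ifs <;> simp_all

theorem run_cutP {e u : α} {src dst cnt J pad W : F} (h1 : src ≠ dst) (h2 : src ≠ cnt)
    (h3 : src ≠ pad) (h4 : src ≠ W) (h5 : dst ≠ cnt) (h6 : dst ≠ pad) (h7 : dst ≠ W)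
    (h8 : cnt ≠ pad) (h9 : cnt ≠ W) (h10 : J ≠ src) (h11 : J ≠ dst) (h12 : J ≠ cnt)
    (h13 : J ≠ pad) (h14 : J ≠ W) {X RJ RP RW : List α} {T i : ℕ} {m : M} {z : F → Zip α}
    (hX : X.length = T * RW.length) (hRW : 1 ≤ RW.length) (hi : i ≤ T)
    (hsrc : z src = zipAt X (i * RW.length))
    (hdst : z dst = ⟨[], []⟩) (hcnt : z cnt = ⟨[], []⟩) (hJ : z J = ⟨[], RJ⟩)
    (hpad : z pad = ⟨[], RP⟩) (hW : z W = ⟨[], RW⟩) :
    Prog.Run d (cutP e u src dst cnt J pad W) ⟨m, z⟩
      (RJ.length * (RP.length * 4 + 5 * RW.length + 9) + 4)
      ⟨m, update (update (update z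
        src (zipAt X ((i + min RJ.length (T - i)) * RW.length)))
        dst ⟨[], cutL e RP.length RW.length i (min RJ.length (T - i)) X⟩)
        cnt ⟨[], List.replicate (min RJ.length (T - i)) u⟩⟩ := by
  set Z : ℕ → F → Zip α := fun k => update (update (update z
        src (zipAt X ((i + min k (T - i)) * RW.length)))
        dst ⟨(cutL e RP.length RW.length i (min k (T - i)) X).reverse, []⟩)
        cnt ⟨List.replicate (min k (T - i)) u, []⟩ with hZ
  have k1 := run_forR (d := d) (r := J)
    (p := .ite (fun _ r => (r src).isSome) (cut1 e u src dst cnt pad W) skip) (R := RJ) (m := m)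
    Z (RP.length * 4 + 5 * RW.length + 7)
    (fun k => by
      simp only [hZ]
      rw [Function.update_of_ne h12, Function.update_of_ne h11, Function.update_of_ne h10, hJ])
    (fun k hk => by
      have hsk : update (Z k) J (zipAt RJ k) src = zipAt X ((i + min k (T - i)) * RW.length) := by
        simp only [hZ]
        rw [Function.update_of_ne h10.symm, Function.update_of_ne h2, Function.update_of_ne h1,
          Function.update_self]
      by_cases hik : k < T - i
      · have m1 : min k (T - i) = k := Nat.min_eq_left (by omega)
        have m2 : min (k + 1) (T - i) = k + 1 := Nat.min_eq_left (by omega)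
        have hlt : (i + k) * RW.length < X.length := by
          rw [hX]; exact Nat.mul_lt_mul_of_pos_right (by omega) (by omega)
        have k2 := run_cut1 (d := d) (e := e) (u := u) (m := m) h1 h2 h4 h5 h6 h7
          (X := X) (RP := RP) (RW := RW) (T := T) (i := i + k) (c := k)
          (v := (cutL e RP.length RW.length i k X).reverse)
          (z := update (Z k) J (zipAt RJ k)) hX (by omega)
          (by rw [hsk, m1])
          (by
            simp only [hZ, m1]
            rw [Function.update_of_ne h11.symm, Function.update_of_ne h5, Function.update_self])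
          (by
            simp only [hZ, m1]
            rw [Function.update_of_ne h12.symm, Function.update_self])
          (by
            simp only [hZ, m1]
            rw [Function.update_of_ne h13.symm, Function.update_of_ne h8.symm,
              Function.update_of_ne h6.symm, Function.update_of_ne h3.symm, hpad])
          (by
            simp only [hZ, m1]
            rw [Function.update_of_ne h14.symm, Function.update_of_ne h9.symm,
              Function.update_of_ne h7.symm, Function.update_of_ne h4.symm, hW])
        refine run_eq (Prog.Run.iteT ?_ k2) (by omega) ?_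
        · show (Zip.peek (update (Z k) J (zipAt RJ k) src)).isSome = true
          rw [hsk, m1, zipAt_peek, List.getElem?_eq_getElem hlt]
          rfl
        · have e4 : i + k + 1 = i + (k + 1) := by omega
          simp only [hZ, m1, m2, e4, cutL_succ]
          rw [← List.reverse_append]
          clear k2 hsk hZ
          funext f
          simp only [Function.update_apply]
          split_ifs <;> simp_all
      · have m1 : min k (T - i) = T - i := Nat.min_eq_right (by omega)
        have m2 : min (k + 1) (T - i) = T - i := Nat.min_eq_right (by omega)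
        refine run_eq (Prog.Run.iteF ?_ (run_skip _)) (by omega) ?_
        · show (Zip.peek (update (Z k) J (zipAt RJ k) src)).isSome = false
          rw [hsk, m1, zipAt_peek, List.getElem?_eq_none]
          · rfl
          · rw [hX, show i + (T - i) = T by omega]
        · simp only [hZ, m1, m2])
  have hZ0 : Z 0 = z := by
    simp only [hZ, Nat.zero_min, Nat.add_zero, List.replicate_zero]
    have e0 : cutL e RP.length RW.length i 0 X = [] := rfl
    rw [e0, List.reverse_nil, upd_self z src _ hsrc, upd_self z dst _ hdst, upd_self z cnt _ hcnt]
  rw [hZ0] at k1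
  refine run_eq (k1.seq ((run_rew dst _ _).seq (run_rew cnt _ _))) ?_ ?_
  · have e5 : RP.length * 4 + 5 * RW.length + 7 + 2 = RP.length * 4 + 5 * RW.length + 9 := by omega
    rw [e5]
  · simp only [hZ, Zip.full]
    funext k
    simp only [Function.update_apply]
    split_ifs <;> simp_all

/-- The same without counting. -/
def cutQ (e : α) (src dst J pad W : F) : Prog M F α :=
  .seq (forR J (.ite (fun _ r => (r src).isSome)
    (.seq (putR e dst pad) (copyN e src dst W)) skip)) (op dst .rew)

theorem run_cutQ {e : α} {src dst J pad W : F} (h1 : src ≠ dst)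
    (h3 : src ≠ pad) (h4 : src ≠ W) (h6 : dst ≠ pad) (h7 : dst ≠ W)
    (h10 : J ≠ src) (h11 : J ≠ dst)
    (h13 : J ≠ pad) (h14 : J ≠ W) {X RJ RP RW : List α} {T i : ℕ} {m : M} {z : F → Zip α}
    (hX : X.length = T * RW.length) (hRW : 1 ≤ RW.length) (hi : i ≤ T)
    (hsrc : z src = zipAt X (i * RW.length))
    (hdst : z dst = ⟨[], []⟩) (hJ : z J = ⟨[], RJ⟩)
    (hpad : z pad = ⟨[], RP⟩) (hW : z W = ⟨[], RW⟩) :
    Prog.Run d (cutQ e src dst J pad W) ⟨m, z⟩
      (RJ.length * (RP.length * 4 + 5 * RW.length + 7) + 3)
      ⟨m, update (update z
        src (zipAt X ((i + min RJ.length (T - i)) * RW.length)))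
        dst ⟨[], cutL e RP.length RW.length i (min RJ.length (T - i)) X⟩⟩ := by
  set Z : ℕ → F → Zip α := fun k => update (update z
        src (zipAt X ((i + min k (T - i)) * RW.length)))
        dst ⟨(cutL e RP.length RW.length i (min k (T - i)) X).reverse, []⟩ with hZ
  have k1 := run_forR (d := d) (r := J)
    (p := .ite (fun _ r => (r src).isSome) (.seq (putR e dst pad) (copyN e src dst W)) skip)
    (R := RJ) (m := m)
    Z (RP.length * 4 + 5 * RW.length + 5)
    (fun k => by
      simp only [hZ]
      rw [Function.update_of_ne h11, Function.update_of_ne h10, hJ])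
    (fun k hk => by
      have hsk : update (Z k) J (zipAt RJ k) src = zipAt X ((i + min k (T - i)) * RW.length) := by
        simp only [hZ]
        rw [Function.update_of_ne h10.symm, Function.update_of_ne h1, Function.update_self]
      by_cases hik : k < T - i
      · have m1 : min k (T - i) = k := Nat.min_eq_left (by omega)
        have m2 : min (k + 1) (T - i) = k + 1 := Nat.min_eq_left (by omega)
        have hlt : (i + k) * RW.length < X.length := by
          rw [hX]; exact Nat.mul_lt_mul_of_pos_right (by omega) (by omega)
        obtain ⟨e1, e2, e3⟩ := zipAt_block (W := RW.length) (i := i + k) hX (by omega)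
        have k2 := run_putR (d := d) (a := e) (m := m) (g := dst) (r := pad) h6
          (z := update (Z k) J (zipAt RJ k)) (R := RP)
          (v := (cutL e RP.length RW.length i k X).reverse)
          (by
            simp only [hZ, m1]
            rw [Function.update_of_ne h11.symm, Function.update_self])
          (by
            simp only [hZ, m1]
            rw [Function.update_of_ne h13.symm,
              Function.update_of_ne h6.symm, Function.update_of_ne h3.symm, hpad])
        have k3 := run_copyN (d := d) (e := e) (m := m) h1 h4 h7 (R := RW)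
          (z := update (update (Z k) J (zipAt RJ k)) dst ⟨List.replicate RP.length e ++
            (cutL e RP.length RW.length i k X).reverse, []⟩)
          (x := (X.drop ((i + k) * RW.length)).take RW.length)
          (u := (X.take ((i + k) * RW.length)).reverse)
          (y := X.drop ((i + k + 1) * RW.length))
          (v := List.replicate RP.length e ++ (cutL e RP.length RW.length i k X).reverse) e2
          (by rw [Function.update_of_ne h1, hsk, m1, e1]) (by rw [Function.update_self])
          (by
            simp only [hZ, m1]
            rw [Function.update_of_ne h7.symm, Function.update_of_ne h14.symm,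
              Function.update_of_ne h7.symm, Function.update_of_ne h4.symm, hW])
        rw [e3] at k3
        refine run_eq (Prog.Run.iteT ?_ (k2.seq k3)) (by omega) ?_
        · show (Zip.peek (update (Z k) J (zipAt RJ k) src)).isSome = true
          rw [hsk, m1, zipAt_peek, List.getElem?_eq_getElem hlt]
          rfl
        · have e4 : i + k + 1 = i + (k + 1) := by omega
          simp only [hZ, m1, m2, e4, cutL_succ]
          funext f
          simp only [Function.update_apply, List.reverse_append, List.reverse_replicate,
            List.append_assoc, zipAt]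
          split_ifs <;> simp_all
      · have m1 : min k (T - i) = T - i := Nat.min_eq_right (by omega)
        have m2 : min (k + 1) (T - i) = T - i := Nat.min_eq_right (by omega)
        refine run_eq (Prog.Run.iteF ?_ (run_skip _)) (by omega) ?_
        · show (Zip.peek (update (Z k) J (zipAt RJ k) src)).isSome = false
          rw [hsk, m1, zipAt_peek, List.getElem?_eq_none]
          · rfl
          · rw [hX, show i + (T - i) = T by omega]
        · simp only [hZ, m1, m2])
  have hZ0 : Z 0 = z := by
    simp only [hZ, Nat.zero_min, Nat.add_zero]
    have e0 : cutL e RP.length RW.length i 0 X = [] := rfl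
    rw [e0, List.reverse_nil, upd_self z src _ hsrc, upd_self z dst _ hdst]
  rw [hZ0] at k1
  refine run_eq (k1.seq (run_rew dst _ _)) ?_ ?_
  · have e5 : RP.length * 4 + 5 * RW.length + 5 + 2 = RP.length * 4 + 5 * RW.length + 7 := by omega
    rw [e5]
  · simp only [hZ, Zip.full]
    funext k
    simp only [Function.update_apply]
    split_ifs <;> simp_all

/-! ### Merging two files -/

/-- The slots of `x` and `y` alternately (`b` is a ruler, the width of a slot); `x` and `y` are
cleared. -/
def mergeP (e : α) (x y O b : F) : Prog M F α :=
  .seq (.loop (fun _ r => (r x).isSome) (.seq (copyN e x O b) (copyN e y O b)))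
    (.seq (clr x) (.seq (clr y) (op O .rew)))

/-- Merged lists. -/
def pairL {β : Type} (b T : ℕ) (X Y : List β) : List β :=
  (List.range T).flatMap fun t => (X.drop (t * b)).take b ++ (Y.drop (t * b)).take b

theorem run_mergeP {e : α} {x y O b : F} (h1 : x ≠ y) (h2 : x ≠ O) (h3 : x ≠ b) (h4 : y ≠ O)
    (h5 : y ≠ b) (h6 : O ≠ b) {X Y RB : List α} {T : ℕ} {m : M} {z : F → Zip α}
    (hX : X.length = T * RB.length) (hY : Y.length = T * RB.length) (hb : 1 ≤ RB.length)
    (hx : z x = ⟨[], X⟩) (hy : z y = ⟨[], Y⟩) (hO : z O = ⟨[], []⟩) (hB : z b = ⟨[], RB⟩) :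
    Prog.Run d (mergeP e x y O b) ⟨m, z⟩ (T * (10 * RB.length + 5) + 6)
      ⟨m, update (update (update z x ⟨[], []⟩) y ⟨[], []⟩)
        O ⟨[], pairL RB.length T X Y⟩⟩ := by
  set Z : ℕ → F → Zip α := fun t => update (update (update z x (zipAt X (t * RB.length)))
    y (zipAt Y (t * RB.length))) O ⟨(pairL RB.length t X Y).reverse, []⟩ with hZ
  have k1 := Prog.Run.loop_const (d := d) (c := fun _ r => (r x).isSome)
    (p := .seq (copyN e x O b) (copyN e y O b)) T (fun t => (⟨m, Z t⟩ : Store M F α))
    (10 * RB.length + 4)
    (fun t ht => by
      have hlt : t * RB.length < X.length := by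
        rw [hX]; exact Nat.mul_lt_mul_of_pos_right (by omega) (by omega)
      simp only [hZ, Store.reads]
      rw [Function.update_of_ne h2, Function.update_of_ne h1, Function.update_self, zipAt_peek,
        List.getElem?_eq_getElem hlt]
      rfl)
    (by
      simp only [hZ, Store.reads]
      rw [Function.update_of_ne h2, Function.update_of_ne h1, Function.update_self, zipAt_peek,
        List.getElem?_eq_none (by rw [hX])]
      rfl)
    (fun t ht => by
      obtain ⟨e1, e2, e3⟩ := zipAt_block (W := RB.length) hX ht
      obtain ⟨e4, e5, e6⟩ := zipAt_block (W := RB.length) hY ht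
      have k2 := run_copyN (d := d) (e := e) (m := m) h2 h3 h6 (R := RB) (z := Z t)
        (x := (X.drop (t * RB.length)).take RB.length)
        (u := (X.take (t * RB.length)).reverse)
        (y := X.drop ((t + 1) * RB.length))
        (v := (pairL RB.length t X Y).reverse) e2
        (by
          simp only [hZ]
          rw [Function.update_of_ne h2, Function.update_of_ne h1, Function.update_self, e1])
        (by simp only [hZ]; rw [Function.update_self])
        (by
          simp only [hZ]
          rw [Function.update_of_ne h6.symm, Function.update_of_ne h5.symm,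
            Function.update_of_ne h3.symm, hB])
      rw [e3] at k2
      have k3 := run_copyN (d := d) (e := e) (m := m) h4 h5 h6 (R := RB)
        (z := update (update (Z t) x
          ⟨(X.take ((t + 1) * RB.length)).reverse, X.drop ((t + 1) * RB.length)⟩) O
          ⟨((X.drop (t * RB.length)).take RB.length).reverse ++
            (pairL RB.length t X Y).reverse, []⟩)
        (x := (Y.drop (t * RB.length)).take RB.length)
        (u := (Y.take (t * RB.length)).reverse)
        (y := Y.drop ((t + 1) * RB.length))
        (v := ((X.drop (t * RB.length)).take RB.length).reverse ++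
            (pairL RB.length t X Y).reverse) e5
        (by
          simp only [hZ]
          rw [Function.update_of_ne h4, Function.update_of_ne h1.symm, Function.update_of_ne h4,
            Function.update_self, e4])
        (by rw [Function.update_self])
        (by
          simp only [hZ]
          rw [Function.update_of_ne h6.symm, Function.update_of_ne h3.symm,
            Function.update_of_ne h6.symm, Function.update_of_ne h5.symm,
            Function.update_of_ne h3.symm, hB])
      rw [e6] at k3
      refine run_eq (k2.seq k3) (by omega) ?_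
      have e7 : pairL RB.length (t + 1) X Y = pairL RB.length t X Y ++
          ((X.drop (t * RB.length)).take RB.length ++ (Y.drop (t * RB.length)).take RB.length) :=
        flatMap_range_succ _ _
      simp only [hZ, e7]
      funext f
      simp only [Function.update_apply, List.reverse_append, List.append_assoc, zipAt]
      split_ifs <;> simp_all)
  have hZ0 : Z 0 = z := by
    have e0 : pairL RB.length 0 X Y = [] := rfl
    simp only [hZ, e0, Nat.zero_mul, zipAt_zero, List.reverse_nil]
    rw [upd_self z x _ hx, upd_self z y _ hy, upd_self z O _ hO]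
  simp only [hZ0] at k1
  refine run_eq (k1.seq ((run_clr x _ _).seq ((run_clr y _ _).seq (run_rew O _ _)))) ?_ ?_
  · have e5 : 10 * RB.length + 4 + 1 = 10 * RB.length + 5 := by omega
    rw [e5]
  · simp only [hZ, Zip.full]
    funext k
    simp only [Function.update_apply]
    split_ifs <;> simp_all

end Vale.Agent.P338.R2.H501.Bp
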