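import Vale.Agent.P338.R2.H501.Bp.Mac1
import Vale.Agent.P338.R2.H778.Bits

/-!
P338, stage 3: macros on files: addition of two numbers written with the same number of bits.
-/

namespace Vale.Agent.P338.R2.H501.Bp

open Vale.Agent.P338.R2.H898 hiding val bin
open Vale.Agent.P338.R2.H968 (upd_self)
open Vale.Agent.P338.R2.H778 (val bits)
open Vale.Agent.P338.R2.H784 (op put clr run_op run_rew run_put run_clr run_right)
open Function (update)

set_option linter.unusedSectionVars false

/-- The carry. -/
def maj (x y c : Bool) : Bool := (x && y) || (x && c) || (y && c)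

/-- Addition with carry (first the least significant bits; the result has the most significant bit
first). -/
def adder : List Bool → List Bool → Bool → List Bool
  | x :: xs, y :: ys, c => adder xs ys (maj x y c) ++ [xor (xor x y) c]
  | _, _, _ => []

/-- The last carry. -/
def carry : List Bool → List Bool → Bool → Bool
  | x :: xs, y :: ys, c => carry xs ys (maj x y c)
  | _, _, c => c

theorem adder_eq (xs ys : List Bool) (c : Bool) (h : ys.length = xs.length) :
    adder xs ys c = bits xs.length (val xs.reverse + val ys.reverse + c.toNat) := by
  induction xs generalizing ys c with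
  | nil =>
    cases ys with
    | nil => rfl
    | cons y ys => simp at h
  | cons x xs ih =>
    cases ys with
    | nil => simp at h
    | cons y ys =>
      have h' : ys.length = xs.length := by simpa using h
      rw [adder, ih ys _ h', List.reverse_cons, List.reverse_cons, H778.val_append,
        H778.val_append, List.length_cons, bits]
      have e1 : (val xs.reverse * 2 ^ [x].length + val [x] +
          (val ys.reverse * 2 ^ [y].length + val [y]) + c.toNat) =
          2 * (val xs.reverse + val ys.reverse) + (x.toNat + y.toNat + c.toNat) := by
        simp only [List.length_singleton, pow_one, H778.val_singleton]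
        ring
      rw [e1]
      have e2 : x.toNat + y.toNat + c.toNat = 2 * (maj x y c).toNat + (xor (xor x y) c).toNat := by
        cases x <;> cases y <;> cases c <;> rfl
      have e3 : (xor (xor x y) c).toNat ≤ 1 := Bool.toNat_le _
      congr 1
      · congr 1
        omega
      · have e4 : (2 * (val xs.reverse + val ys.reverse) + (x.toNat + y.toNat + c.toNat)) % 2 =
            (xor (xor x y) c).toNat := by omega
        rw [e4]
        cases xor (xor x y) c <;> rfl

variable {M F α : Type} [DecidableEq F] {d : α}

/-- The bit under the head of `f`. -/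
def rdB (unbit : α → Bool) (e : α) (r : F → Option α) (f : F) : Bool := unbit ((r f).getD e)

/-- One step of the addition: the heads of `x` and `y` move left, the digit is written to `x`, the
carry is on `e`, the steps are counted by `c`. -/
def addStep (bit : Bool → α) (unbit : α → Bool) (x y c e : F) : Prog M F α :=
  .seq (op x .left) (.seq (op y .left)
    (.seq (.prim fun m r => (m, some (x, .write (bit (xor (xor (rdB unbit (bit false) r x)
        (rdB unbit (bit false) r y)) (rdB unbit (bit false) r e))))))
      (.seq (.prim fun m r => (m, some (e, .write (bit (maj (xor (xor (rdB unbit (bit false) r x)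
        (rdB unbit (bit false) r y)) (rdB unbit (bit false) r e)) (rdB unbit (bit false) r y)
        (rdB unbit (bit false) r e)))))) (op c .right))))

/-- `x := x + y` (modulo a power of two; `x` and `y` have the same length), `y` is cleared; `c` and
`e` are scratch files. -/
def addP (bit : Bool → α) (unbit : α → Bool) (u : α) (x y c e : F) : Prog M F α :=
  .seq (.loop (fun _ r => (r x).isSome) (.seq (op x .right) (.seq (op y .right) (put c u))))
    (.seq (op c .rew) (.seq (op e (.write (bit false)))
      (.seq (.loop (fun _ r => (r c).isSome) (addStep bit unbit x y c e))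
        (.seq (clr c) (.seq (clr e) (clr y))))))

variable {bit : Bool → α} {unbit : α → Bool} {u : α} {x y c e : F}

theorem run_addStep (hu : ∀ b, unbit (bit b) = b) (h1 : x ≠ y) (h2 : x ≠ c) (h3 : x ≠ e)
    (h4 : y ≠ c) (h5 : y ≠ e) (h6 : c ≠ e) {xs ys xo yo cl cr : List α} {a b k : Bool} {w : α}
    {m : M} {z : F → Zip α} (hx : z x = ⟨bit a :: xs, xo⟩) (hy : z y = ⟨bit b :: ys, yo⟩)
    (hc : z c = ⟨cl, w :: cr⟩) (he : z e = ⟨[], [bit k]⟩) :
    Prog.Run d (addStep bit unbit x y c e) ⟨m, z⟩ 5
      ⟨m, update (update (update (update z x ⟨xs, bit (xor (xor a b) k) :: xo⟩)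
        y ⟨ys, bit b :: yo⟩) c ⟨w :: cl, cr⟩) e ⟨[], [bit (maj a b k)]⟩⟩ := by
  have k1 := run_op (d := d) x Op.left m z
  rw [hx] at k1
  have k2 := run_op (d := d) y Op.left m (update z x ⟨xs, bit a :: xo⟩)
  rw [Function.update_of_ne h1.symm, hy] at k2
  have k3 : Prog.Run d (.prim fun m r => (m, some (x, .write (bit (xor (xor
        (rdB unbit (bit false) r x) (rdB unbit (bit false) r y)) (rdB unbit (bit false) r e))))) :
        Prog M F α) ⟨m, update (update z x ⟨xs, bit a :: xo⟩) y ⟨ys, bit b :: yo⟩⟩ 1
      ⟨m, update (update z x ⟨xs, bit (xor (xor a b) k) :: xo⟩) y ⟨ys, bit b :: yo⟩⟩ := by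
    apply Prog.Run.prim'
    simp only [Prog.appAct, Store.reads, rdB]
    rw [Function.update_self, Function.update_of_ne h1, Function.update_self,
      Function.update_of_ne h5.symm, Function.update_of_ne h3.symm, he]
    simp only [Zip.peek, List.head?_cons, Option.getD_some, hu, Op.app]
    congr 1
    funext f
    simp only [Function.update_apply]
    split_ifs <;> simp_all
  have k4 : Prog.Run d (.prim fun m r => (m, some (e, .write (bit (maj (xor (xor
        (rdB unbit (bit false) r x) (rdB unbit (bit false) r y)) (rdB unbit (bit false) r e))
        (rdB unbit (bit false) r y) (rdB unbit (bit false) r e))))) :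
        Prog M F α)
      ⟨m, update (update z x ⟨xs, bit (xor (xor a b) k) :: xo⟩) y ⟨ys, bit b :: yo⟩⟩ 1
      ⟨m, update (update (update z x ⟨xs, bit (xor (xor a b) k) :: xo⟩) y ⟨ys, bit b :: yo⟩)
        e ⟨[], [bit (maj a b k)]⟩⟩ := by
    apply Prog.Run.prim'
    simp only [Prog.appAct, Store.reads, rdB]
    rw [Function.update_self, Function.update_of_ne h1, Function.update_self,
      Function.update_of_ne h5.symm, Function.update_of_ne h3.symm, he]
    simp only [Zip.peek, List.head?_cons, Option.getD_some, hu, Op.app]
    have e1 : xor (xor (xor (xor a b) k) b) k = a := by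
      cases a <;> cases b <;> cases k <;> rfl
    rw [e1]
  have k5 := run_right (d := d) (f := c) (m := m)
    (z := update (update (update z x ⟨xs, bit (xor (xor a b) k) :: xo⟩) y ⟨ys, bit b :: yo⟩)
        e ⟨[], [bit (maj a b k)]⟩) (l := cl) (r := cr) (a := w)
    (by rw [Function.update_of_ne h6, Function.update_of_ne h4.symm,
      Function.update_of_ne h2.symm, hc])
  refine run_eq (k1.seq (k2.seq (k3.seq (k4.seq k5)))) (by omega) ?_
  rw [Function.update_comm h6]

theorem run_addLoop (hu : ∀ b, unbit (bit b) = b) (h1 : x ≠ y) (h2 : x ≠ c) (h3 : x ≠ e)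
    (h4 : y ≠ c) (h5 : y ≠ e) (h6 : c ≠ e) (xs ys : List Bool) (hl : ys.length = xs.length)
    {xo yo cl : List α} {k : Bool}
    {m : M} {z : F → Zip α} (hx : z x = ⟨xs.map bit, xo⟩) (hy : z y = ⟨ys.map bit, yo⟩)
    (hc : z c = ⟨cl, List.replicate xs.length u⟩) (he : z e = ⟨[], [bit k]⟩) :
    Prog.Run d (.loop (fun _ r => (r c).isSome) (addStep bit unbit x y c e)) ⟨m, z⟩
      (6 * xs.length + 1)
      ⟨m, update (update (update (update z x ⟨[], (adder xs ys k).map bit ++ xo⟩)
        y ⟨[], (ys.map bit).reverse ++ yo⟩) c ⟨List.replicate xs.length u ++ cl, []⟩)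
        e ⟨[], [bit (carry xs ys k)]⟩⟩ := by
  induction xs generalizing ys xo yo cl k z with
  | nil =>
    cases ys with
    | cons b ys => simp at hl
    | nil =>
      refine run_eq (Prog.Run.loopF ?_) (by simp) ?_
      · simp only [Store.reads, hc, List.length_nil, List.replicate_zero]
        rfl
      · simp only [List.map_nil, List.length_nil, List.replicate_zero] at hx hy hc
        simp only [adder, carry, List.map_nil, List.nil_append, List.reverse_nil,
          List.length_nil, List.replicate_zero]
        rw [upd_self z x _ hx, upd_self z y _ hy, upd_self z c _ hc, upd_self z e _ he]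
  | cons a xs ih =>
    cases ys with
    | nil => simp at hl
    | cons b ys =>
      have hl' : ys.length = xs.length := by simpa using hl
      rw [List.length_cons, List.replicate_succ] at hc
      rw [List.map_cons] at hx hy
      have k1 := run_addStep (d := d) (m := m) hu h1 h2 h3 h4 h5 h6 hx hy hc he
      have k2 := ih ys hl' (xo := bit (xor (xor a b) k) :: xo) (yo := bit b :: yo) (cl := u :: cl)
        (k := maj a b k)
        (z := update (update (update (update z x ⟨xs.map bit, bit (xor (xor a b) k) :: xo⟩)
        y ⟨ys.map bit, bit b :: yo⟩) c ⟨u :: cl, List.replicate xs.length u⟩)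
          e ⟨[], [bit (maj a b k)]⟩)
        (by rw [Function.update_of_ne h3, Function.update_of_ne h2, Function.update_of_ne h1,
          Function.update_self])
        (by rw [Function.update_of_ne h5, Function.update_of_ne h4, Function.update_self])
        (by rw [Function.update_of_ne h6, Function.update_self])
        (by rw [Function.update_self])
      refine run_eq (Prog.Run.loopT ?_ k1 k2) (by simp only [List.length_cons]; omega) ?_
      · simp only [Store.reads, hc]
        rfl
      · clear k1 k2 ih hx hy hc he hl hl'
        have e1 : List.replicate xs.length u ++ u :: cl = u :: (List.replicate xs.length u ++ cl) := by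
          rw [← List.cons_append, ← List.replicate_succ, List.replicate_succ', List.append_assoc]
          rfl
        simp only [adder, carry, List.map_append, List.map_cons, List.map_nil, List.append_assoc,
          List.reverse_cons, List.length_cons, List.replicate_succ, List.cons_append, e1]
        funext f
        simp only [Function.update_apply]
        split_ifs <;> simp_all

theorem run_addScan (h1 : x ≠ y) (h2 : x ≠ c) (h4 : y ≠ c) (xs ys : List α)
    (hl : ys.length = xs.length) {xl yl cl : List α}
    {m : M} {z : F → Zip α} (hx : z x = ⟨xl, xs⟩) (hy : z y = ⟨yl, ys⟩) (hc : z c = ⟨cl, []⟩) :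
    Prog.Run d (.loop (fun _ r => (r x).isSome)
        (.seq (op x .right) (.seq (op y .right) (put c u)))) ⟨m, z⟩
      (5 * xs.length + 1)
      ⟨m, update (update (update z x ⟨xs.reverse ++ xl, []⟩)
        y ⟨ys.reverse ++ yl, []⟩) c ⟨List.replicate xs.length u ++ cl, []⟩⟩ := by
  induction xs generalizing ys xl yl cl z with
  | nil =>
    cases ys with
    | cons b ys => simp at hl
    | nil =>
      refine run_eq (Prog.Run.loopF ?_) (by simp) ?_
      · simp only [Store.reads, hx]
        rfl
      · simp only [List.nil_append, List.reverse_nil, List.length_nil, List.replicate_zero]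
        rw [upd_self z x _ hx, upd_self z y _ hy, upd_self z c _ hc]
  | cons a xs ih =>
    cases ys with
    | nil => simp at hl
    | cons b ys =>
      have hl' : ys.length = xs.length := by simpa using hl
      have k1 := run_right (d := d) (f := x) (m := m) (z := z) hx
      have k2 := run_right (d := d) (f := y) (m := m) (z := update z x ⟨a :: xl, xs⟩)
        (l := yl) (r := ys) (a := b) (by rw [Function.update_of_ne h1.symm, hy])
      have k3 := run_put (d := d) (f := c) (a := u) (m := m)
        (z := update (update z x ⟨a :: xl, xs⟩) y ⟨b :: yl, ys⟩) (l := cl)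
        (by rw [Function.update_of_ne h4.symm, Function.update_of_ne h2.symm, hc])
      have k4 := ih ys hl' (xl := a :: xl) (yl := b :: yl) (cl := u :: cl)
        (z := update (update (update z x ⟨a :: xl, xs⟩) y ⟨b :: yl, ys⟩) c ⟨u :: cl, []⟩)
        (by rw [Function.update_of_ne h2, Function.update_of_ne h1, Function.update_self])
        (by rw [Function.update_of_ne h4, Function.update_self])
        (by rw [Function.update_self])
      refine run_eq (Prog.Run.loopT ?_ (k1.seq (k2.seq k3)) k4)
        (by simp only [List.length_cons]; omega) ?_
      · simp only [Store.reads, hx]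
        rfl
      · clear k1 k2 k3 k4 ih hx hy hc hl hl'
        have e1 : List.replicate xs.length u ++ u :: cl = u :: (List.replicate xs.length u ++ cl) := by
          rw [← List.cons_append, ← List.replicate_succ, List.replicate_succ', List.append_assoc]
          rfl
        simp only [List.append_assoc, List.reverse_cons, List.length_cons, List.replicate_succ,
          List.cons_append, e1]
        funext f
        simp only [Function.update_apply]
        split_ifs <;> simp_all

theorem run_addP (hu : ∀ b, unbit (bit b) = b) (h1 : x ≠ y) (h2 : x ≠ c) (h3 : x ≠ e)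
    (h4 : y ≠ c) (h5 : y ≠ e) (h6 : c ≠ e) {X Y : List Bool} (hl : Y.length = X.length)
    {m : M} {z : F → Zip α} (hx : z x = ⟨[], X.map bit⟩) (hy : z y = ⟨[], Y.map bit⟩)
    (hc : z c = ⟨[], []⟩) (he : z e = ⟨[], []⟩) :
    Prog.Run d (addP bit unbit u x y c e) ⟨m, z⟩ (11 * X.length + 10)
      ⟨m, update (update z x ⟨[], (bits X.length (val X + val Y)).map bit⟩) y ⟨[], []⟩⟩ := by
  have k1 := run_addScan (d := d) (u := u) (m := m) h1 h2 h4 (X.map bit) (Y.map bit)
    (by simpa using hl) hx hy hc
  simp only [List.append_nil, ← List.map_reverse, List.length_map] at k1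
  have k2 := run_rew (d := d) c m (update (update (update z x ⟨X.reverse.map bit, []⟩)
        y ⟨Y.reverse.map bit, []⟩) c ⟨List.replicate X.length u, []⟩)
  rw [Function.update_idem, Function.update_self] at k2
  simp only [Zip.full, List.append_nil, List.reverse_replicate] at k2
  have k3 := run_op (d := d) e (Op.write (bit false)) m
    (update (update (update z x ⟨X.reverse.map bit, []⟩)
        y ⟨Y.reverse.map bit, []⟩) c ⟨[], List.replicate X.length u⟩)
  rw [Function.update_of_ne h6.symm, Function.update_of_ne h5.symm, Function.update_of_ne h3.symm,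
    he] at k3
  have k4 := run_addLoop (d := d) (u := u) (m := m) hu h1 h2 h3 h4 h5 h6 X.reverse Y.reverse
    (by simpa using hl) (xo := []) (yo := []) (cl := []) (k := false)
    (z := update (update (update (update z x ⟨X.reverse.map bit, []⟩)
        y ⟨Y.reverse.map bit, []⟩) c ⟨[], List.replicate X.length u⟩) e ⟨[], [bit false]⟩)
    (by rw [Function.update_of_ne h3, Function.update_of_ne h2, Function.update_of_ne h1,
      Function.update_self])
    (by rw [Function.update_of_ne h5, Function.update_of_ne h4, Function.update_self])
    (by rw [Function.update_of_ne h6, Function.update_self, List.length_reverse])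
    (by rw [Function.update_self])
  rw [adder_eq _ _ _ (by simpa using hl)] at k4
  simp only [List.append_nil, List.length_reverse, List.reverse_reverse, Bool.toNat_false,
    Nat.add_zero] at k4
  refine run_eq (k1.seq (k2.seq (k3.seq (k4.seq ((run_clr c _ _).seq ((run_clr e _ _).seq
    (run_clr y _ _))))))) (by omega) ?_
  clear k1 k2 k3 k4 hl
  funext f
  simp only [Function.update_apply]
  split_ifs <;> simp_all

end Vale.Agent.P338.R2.H501.Bp
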